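import Vale.Agent.P027M.F.Sub0
import Vale.Agent.P027M.B.Pts

/-! # P027 route M, block R: the field `FF` has genus seven in every characteristic -/

set_option linter.all false

noncomputable section

namespace Vale.Agent.P027M.R

open Polynomial IntermediateField Vale.Agent.P019P P025H492 Vale.Agent.P027M.F

namespace Gn

section gen

variable {k L : Type*} [Field k] [Field L] [Algebra k L] [CFF k L] {m y : L} {F : k[X]}

theorem mem_iff {n : ℕ} {x : L} :
    x ∈ LL k (n • pol k m) ↔ x = 0 ∨ ∀ P : Plk k L, -(n * max 0 (-ord P m)) ≤ ord P x := by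
  simp only [mem_LL, Finsupp.smul_apply, pol_apply, nsmul_eq_mul]

theorem inv_LL (σ : L ≃ₐ[k] L) (hσ : σ m = m) {n : ℕ} {x : L} (hx : x ∈ LL k (n • pol k m)) :
    σ x ∈ LL k (n • pol k m) := by
  rw [mem_iff] at hx ⊢
  rcases hx with rfl | hx
  · exact Or.inl (map_zero _)
  refine Or.inr fun Q => ?_
  have h1 := hx (tr σ.symm Q)
  have h2 := ord_tr σ (tr σ.symm Q) x
  have h3 := ord_tr σ (tr σ.symm Q) m
  rw [tr_tr_symm] at h2 h3
  rw [hσ] at h3
  rw [h2, h3]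
  exact h1

theorem aev_ne (hm : ∀ a : k, m ≠ algebraMap k L a) {p : k[X]} (hp : p ≠ 0) : aeval m p ≠ 0 :=
  fun h => hp (transcendental_iff.1 (finite_of_notMem hm).1 p h)

theorem y_ne (hm : ∀ a : k, m ≠ algebraMap k L a) (hy : y ^ 2 = aeval m F) (hF : F ≠ 0) :
    y ≠ 0 := fun h => aev_ne hm hF (by rw [← hy, h]; ring)

theorem two_ord (hy : y ^ 2 = aeval m F) (P : Plk k L) : 2 * ord P y = ord P (aeval m F) := by
  rw [← hy, ord_pow]; rfl

theorem dl (a : k[X]) (n : ℕ) : a ∈ degreeLT k n ↔ a = 0 ∨ a.natDegree < n := by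
  by_cases h : a = 0
  · simp [h]
  · rw [mem_degreeLT, ← natDegree_lt_iff_degree_lt h]
    simp [h]

theorem mem_of (hm : ∀ a : k, m ≠ algebraMap k L a) (hy : y ^ 2 = aeval m F) (hF : F ≠ 0)
    {n r : ℕ} (hr : 2 * r + F.natDegree ≤ 2 * n + 2) {p : k[X]} (hp : p ∈ degreeLT k r) :
    aeval m p * y ∈ LL k (n • pol k m) := by
  rw [mem_iff]
  rcases (dl p r).1 hp with rfl | hp
  · exact Or.inl (by rw [map_zero, zero_mul])
  by_cases p0 : p = 0
  · exact Or.inl (by rw [p0, map_zero, zero_mul])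
  refine Or.inr fun P => ?_
  have h2 := two_ord hy P
  rw [ord_mul P (aev_ne hm p0) (y_ne hm hy hF)]
  rcases lt_or_ge (ord P m) 0 with h | h
  · rw [B.PtsAux.ord_pole h hF] at h2
    rw [B.PtsAux.ord_pole h p0, max_eq_right (by omega)]
    have h3 : 2 * (p.natDegree : ℤ) + F.natDegree ≤ 2 * n := by omega
    nlinarith
  · have h3 := (aeval_mem_zero h p).resolve_left (aev_ne hm p0)
    have h4 := (aeval_mem_zero h F).resolve_left (aev_ne hm hF)
    rw [max_eq_left (by omega)]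
    omega

theorem of_mem (hm : ∀ a : k, m ≠ algebraMap k L a) (hy : y ^ 2 = aeval m F) (hF : F.Separable)
    {n r : ℕ} (hr : 2 * n < 2 * r + F.natDegree) {p q : k[X]} (hq : q.Monic) (hc : IsCoprime p q)
    (h : aeval m p / aeval m q * y ∈ LL k (n • pol k m)) :
    ∃ a ∈ degreeLT k r, aeval m p / aeval m q * y = aeval m a * y := by
  haveI : IsAlgClosed k := CFF.ac (k := k) (F := L)
  by_cases p0 : p = 0
  · exact ⟨0, zero_mem _, by rw [p0, map_zero, zero_div]⟩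
  have y0 := y_ne hm hy hF.ne_zero
  have p1 := aev_ne hm p0
  have q1 := aev_ne hm hq.ne_zero
  rw [mem_iff] at h
  replace h := h.resolve_left (mul_ne_zero (div_ne_zero p1 q1) y0)
  have o : ∀ P : Plk k L, ord P (aeval m p / aeval m q * y) =
      ord P (aeval m p) - ord P (aeval m q) + ord P y := fun P => by
    rw [ord_mul P (div_ne_zero p1 q1) y0, div_eq_mul_inv, ord_mul P p1 (inv_ne_zero q1), ord_inv]
    ring
  have e : q = 1 := by
    by_contra e
    have hd : q.degree ≠ 0 := fun h0 => e ((Monic.degree_le_zero_iff_eq_one hq).1 h0.le)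
    obtain ⟨a, ha⟩ := IsAlgClosed.exists_root q hd
    obtain ⟨P, hP⟩ := exists_zero (nc_sub hm a)
    have v := vl_eq_of_pos hP
    have h0 : 0 ≤ ord P m := ord_nonneg_of_sub (mem_Mge_one_of_pos hP)
    have h1 := h P
    have h2 := two_ord hy P
    have pa : ¬ p.IsRoot a := fun h3 => by
      obtain ⟨u, t, e⟩ := hc
      have := congrArg (eval a) e
      simp [h3.eq_zero, ha.eq_zero] at this
    rw [o, B.PtsAux.ord_aff hm h0 p0, B.PtsAux.ord_aff hm h0 hq.ne_zero, v,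
      rootMultiplicity_eq_zero pa, max_eq_left (by omega)] at h1
    rw [B.PtsAux.ord_aff hm h0 hF.ne_zero, v] at h2
    have h3 : (1 : ℤ) ≤ q.rootMultiplicity a := by
      have := (rootMultiplicity_pos hq.ne_zero).2 ha
      omega
    have h4 : (F.rootMultiplicity a : ℤ) ≤ 1 := by
      have := rootMultiplicity_le_one_of_separable hF a
      omega
    push_cast at h1
    nlinarith
  subst e
  refine ⟨p, (dl p r).2 (Or.inr ?_), by rw [map_one, div_one]⟩
  obtain ⟨P, hP⟩ := exists_pole hm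
  have h1 := h P
  have h2 := two_ord hy P
  rw [o, map_one, ord_one, B.PtsAux.ord_pole hP p0, max_eq_right (by omega)] at h1
  rw [B.PtsAux.ord_pole hP hF.ne_zero] at h2
  have h3 : 2 * (p.natDegree : ℤ) + F.natDegree ≤ 2 * n := by nlinarith
  omega

end gen

theorem comps {k L : Type*} [Field k] [Field L] [Algebra k L] (h2 : (2 : k) ≠ 0)
    (S : Submodule k L) {A B C D : L} (h0 : A + B + C + D ∈ S) (h1 : A - B + C - D ∈ S)
    (h3 : A + B - C - D ∈ S) (h4 : A - B - C + D ∈ S) : A ∈ S ∧ B ∈ S ∧ C ∈ S ∧ D ∈ S := by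
  have h : (4 : k) ≠ 0 := by
    have : (4 : k) = 2 * 2 := by norm_num
    rw [this]; exact mul_ne_zero h2 h2
  have key : ∀ x : L, (4 : L) * x ∈ S → x ∈ S := fun x hx => by
    have e : (4 : L) * x = (4 : k) • x := by rw [Algebra.smul_def, map_ofNat]
    rw [e] at hx
    exact (S.smul_mem_iff h).1 hx
  refine ⟨key _ ?_, key _ ?_, key _ ?_, key _ ?_⟩
  · convert add_mem (add_mem h0 h1) (add_mem h3 h4) using 1; ring
  · convert sub_mem (add_mem h0 h3) (add_mem h1 h4) using 1; ring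
  · convert sub_mem (add_mem h0 h1) (add_mem h3 h4) using 1; ring
  · convert sub_mem (add_mem h0 h4) (add_mem h1 h3) using 1; ring

section sep

variable {k : Type*} [Field k]

theorem cop1 {a : k} (h : a ≠ 0) : IsCoprime X (X ^ 2 - C a : k[X]) :=
  ⟨C a⁻¹ * X, -C a⁻¹, by
    have : C a⁻¹ * C a = (1 : k[X]) := by rw [← map_mul, inv_mul_cancel₀ h, map_one]
    linear_combination this⟩

theorem cop2 {a b : k} (h : a - b ≠ 0) : IsCoprime (X ^ 2 - C a : k[X]) (X ^ 2 - C b) :=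
  ⟨-C (a - b)⁻¹, C (a - b)⁻¹, by
    have : C (a - b)⁻¹ * (C a - C b) = (1 : k[X]) := by
      rw [← map_sub, ← map_mul, inv_mul_cancel₀ h, map_one]
    linear_combination this⟩

theorem sep2 (h2 : (2 : k) ≠ 0) {a : k} (h : a ≠ 0) : (X ^ 2 - C a : k[X]).Separable :=
  separable_X_pow_sub_C a (by exact_mod_cast h2) h

theorem sep7 (h2 : (2 : k) ≠ 0) {a b c : k} (ha : a ≠ 0) (hb : b ≠ 0) (hc : c ≠ 0)
    (hab : a - b ≠ 0) (hac : a - c ≠ 0) (hbc : b - c ≠ 0) :
    (X * (X ^ 2 - C a) * (X ^ 2 - C b) * (X ^ 2 - C c) : k[X]).Separable :=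
  ((separable_X.mul (sep2 h2 ha) (cop1 ha)).mul (sep2 h2 hb)
    ((cop1 hb).mul_left (cop2 hab))).mul (sep2 h2 hc)
    (((cop1 hc).mul_left (cop2 hac)).mul_left (cop2 hbc))

theorem deg7 (a b c : k) :
    (X * (X ^ 2 - C a) * (X ^ 2 - C b) * (X ^ 2 - C c) : k[X]).natDegree = 7 := by
  compute_degree!

end sep

end Gn

open Gn

variable {k : Type*} [Field k] (P : Par k)

/-- the third quadratic equation is `V² = hP(M)` -/
def hP : k[X] :=
  C (4 * P.g0) * (X * (X ^ 2 - C P.g0) * (X ^ 2 - C (P.c * P.g0)) * (X ^ 2 - C (P.d1 * P.g0)))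

theorem one_sub {a : k} (h : a - 1 ≠ 0) : P.g0 - a * P.g0 ≠ 0 := fun e =>
  mul_ne_zero h P.hg0 (by linear_combination -e)

theorem sub_sub {a b : k} (h : a - b ≠ 0) : a * P.g0 - b * P.g0 ≠ 0 := fun e =>
  mul_ne_zero h P.hg0 (by linear_combination e)

theorem unit4 : IsUnit (C (4 * P.g0) : k[X]) := isUnit_C.2 (mul_ne_zero P.h4 P.hg0).isUnit

theorem fP_sep : P.fP.Separable :=
  sep7 P.h2 P.hg0 (mul_ne_zero P.c_ne P.hg0) (mul_ne_zero P.d2_ne P.hg0) (one_sub P P.c_ne_one)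
    (one_sub P P.d2_ne_one) (sub_sub P P.c_ne_d2)

theorem hP_sep : (hP P).Separable :=
  Separable.unit_mul (unit4 P) (sep7 P.h2 P.hg0 (mul_ne_zero P.c_ne P.hg0)
    (mul_ne_zero P.d1_ne P.hg0) (one_sub P P.c_ne_one) (one_sub P P.d1_ne_one)
    (sub_sub P fun e => P.d1_ne_c (by linear_combination -e)))

theorem dP_sep : P.dP.Separable := by
  unfold Par.dP
  rw [mul_assoc]
  exact Separable.unit_mul (unit4 P) ((sep2 P.h2 (mul_ne_zero P.d1_ne P.hg0)).mul
    (sep2 P.h2 (mul_ne_zero P.d2_ne P.hg0)) (cop2 (sub_sub P P.d1_ne_d2)))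

theorem fP_deg : P.fP.natDegree = 7 := deg7 _ _ _

theorem hP_deg : (hP P).natDegree = 7 := by
  unfold hP
  rw [natDegree_C_mul (mul_ne_zero P.h4 P.hg0), deg7]

theorem dP_deg : P.dP.natDegree = 4 := by
  unfold Par.dP
  rw [mul_assoc, natDegree_C_mul (mul_ne_zero P.h4 P.hg0)]
  compute_degree!

variable [IsAlgClosed k]

theorem finrank_M1 : Module.finrank k⟮P.M1⟯ P.FF = 4 := by
  rw [← P.finrank_FF]
  refine (Algebra.finrank_eq_of_equiv_equiv
    (RatFunc.algEquivOfTranscendental P.M1 P.M1_tr).toRingEquiv (RingEquiv.refl P.FF) ?_).symm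
  refine RingHom.ext fun u => ?_
  change ((RatFunc.algEquivOfTranscendental P.M1 P.M1_tr u : k⟮P.M1⟯) : P.FF) =
    algebraMap (RatFunc k) P.FF u
  rw [RatFunc.algEquivOfTranscendental_apply]
  conv_rhs => rw [← u.num_div_denom, map_div₀, P.poly_eq, P.poly_eq]

theorem rat_eq (u : RatFunc k) :
    algebraMap (RatFunc k) P.FF u = aeval P.M1 u.num / aeval P.M1 u.denom := by
  conv_lhs => rw [← u.num_div_denom, map_div₀, P.poly_eq, P.poly_eq]

/-- the sign changes -/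
theorem exists_sgn {ε δ : P.FF} (hε : ε = 1 ∨ ε = -1) (hδ : δ = 1 ∨ δ = -1) :
    ∃ σ : P.FF ≃ₐ[k] P.FF, σ P.M1 = P.M1 ∧ σ P.W = ε * P.W ∧ σ P.Z = δ * P.Z := by
  have e2 : ε ^ 2 = 1 := by rcases hε with rfl | rfl <;> norm_num
  have d2 : δ ^ 2 = 1 := by rcases hδ with rfl | rfl <;> norm_num
  obtain ⟨φ, hk, hM, hW, hZ⟩ := P.exists_hom0 (algebraMap k P.FF) P.M1 (ε * P.W) (δ * P.Z)
    P.M1_tr' (by rw [mul_pow, e2, one_mul, P.W_sq]; rfl) (by rw [mul_pow, d2, one_mul, P.Z_sq]; rfl)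
  have e1 : φ ε = ε := by rcases hε with rfl | rfl <;> simp
  have d1 : φ δ = δ := by rcases hδ with rfl | rfl <;> simp
  have h : φ.comp φ = RingHom.id _ := P.hom_ext0 (fun a => by simp [hk]) (by simp [hM])
    (by simp only [RingHom.comp_apply, hW, map_mul, e1, RingHom.id_apply]
        linear_combination P.W * e2)
    (by simp only [RingHom.comp_apply, hZ, map_mul, d1, RingHom.id_apply]
        linear_combination P.Z * d2)
  exact ⟨AlgEquiv.ofRingEquiv (f := RingEquiv.ofRingHom φ φ h h) hk, hM, hW, hZ⟩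

/-- the third square root -/
def V : P.FF := P.W * P.Z / aeval P.M1 (X ^ 2 - C (P.d2 * P.g0) : k[X])

theorem den_ne : aeval P.M1 (X ^ 2 - C (P.d2 * P.g0) : k[X]) ≠ 0 :=
  P.M1_tr' _ (X_pow_sub_C_ne_zero (by norm_num) _)

theorem V_sq : V P ^ 2 = aeval P.M1 (hP P) := by
  have h := den_ne P
  have e : P.fP * P.dP = hP P * (X ^ 2 - C (P.d2 * P.g0)) ^ 2 := by
    unfold Par.fP Par.dP hP
    ring
  rw [V, div_pow, mul_pow, P.W_sq, P.Z_sq, div_eq_iff (pow_ne_zero _ h), ← map_pow, ← map_mul,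
    ← map_mul, e]

theorem aut_aeval (σ : P.FF ≃ₐ[k] P.FF) (h : σ P.M1 = P.M1) (p : k[X]) :
    σ (aeval P.M1 p) = aeval P.M1 p := by
  rw [← aeval_algHom_apply, h]

theorem split (S : Submodule k P.FF)
    (hS : ∀ σ : P.FF ≃ₐ[k] P.FF, σ P.M1 = P.M1 → ∀ x ∈ S, σ x ∈ S) {a b c d : P.FF}
    (ha : ∀ σ : P.FF ≃ₐ[k] P.FF, σ P.M1 = P.M1 → σ a = a ∧ σ b = b ∧ σ c = c ∧ σ d = d)
    (h : a * 1 + b * P.W + c * P.Z + d * V P ∈ S) :
    a * 1 ∈ S ∧ b * P.W ∈ S ∧ c * P.Z ∈ S ∧ d * V P ∈ S := by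
  have key : ∀ ε δ : P.FF, (ε = 1 ∨ ε = -1) → (δ = 1 ∨ δ = -1) →
      a * 1 + ε * (b * P.W) + δ * (c * P.Z) + ε * δ * (d * V P) ∈ S := fun ε δ hε hδ => by
    obtain ⟨σ, hM, hW, hZ⟩ := exists_sgn P hε hδ
    obtain ⟨h1, h2, h3, h4⟩ := ha σ hM
    have h5 : σ (V P) = ε * δ * V P := by
      rw [V, map_div₀, map_mul, aut_aeval P σ hM, hW, hZ]; ring
    have := hS σ hM _ h
    simp only [map_add, map_mul, map_one, h1, h2, h3, h4, h5, hW, hZ] at this
    convert this using 1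
    ring
  refine comps P.h2 S h ?_ ?_ ?_
  · convert key (-1) 1 (Or.inr rfl) (Or.inl rfl) using 1; ring
  · convert key 1 (-1) (Or.inl rfl) (Or.inr rfl) using 1; ring
  · convert key (-1) (-1) (Or.inr rfl) (Or.inr rfl) using 1; ring

theorem rep (z : P.FF) : ∃ a b c d : RatFunc k, z = algebraMap _ P.FF a * 1 +
    algebraMap _ P.FF b * P.W + algebraMap _ P.FF c * P.Z + algebraMap _ P.FF d * V P := by
  obtain ⟨a, b, c, d, h⟩ := P.FF_rep z
  refine ⟨a, b, c, d * algebraMap k[X] (RatFunc k) (X ^ 2 - C (P.d2 * P.g0)), ?_⟩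
  have h1 := den_ne P
  rw [h, map_mul, P.poly_eq, V]
  field_simp
  ring

/-- **the genus of `FF`** -/
theorem gen_FF : gen k P.FF = 7 := by
  have hm : ∀ a : k, P.M1 ≠ algebraMap k P.FF a := P.M1_nc
  obtain ⟨N, hN⟩ := exists_l_pol_eq hm
  have h := hN (N + 4) (by omega)
  let f : ∀ (n : ℕ) (y : P.FF), degreeLT k n →ₗ[k] P.FF := fun n y =>
    LinearMap.mulRight k y ∘ₗ (aeval P.M1).toLinearMap ∘ₗ (degreeLT k n).subtype
  let Λ := (((f (N + 5) 1).coprod (f (N + 1) P.W)).coprod (f (N + 3) P.Z)).coprod (f (N + 1) (V P))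
  have ap : ∀ x, Λ x = aeval P.M1 (x.1.1.1 : k[X]) * 1 + aeval P.M1 (x.1.1.2 : k[X]) * P.W +
    aeval P.M1 (x.1.2 : k[X]) * P.Z + aeval P.M1 (x.2 : k[X]) * V P := fun x => rfl
  have h1 : (1 : P.FF) ^ 2 = aeval P.M1 (1 : k[X]) := by rw [map_one, one_pow]
  have inj : Function.Injective Λ := (injective_iff_map_eq_zero Λ).2 fun x hx => by
    obtain ⟨e1, e2, e3, e4⟩ := split P ⊥ (fun σ _ x hx => by
      rw [Submodule.mem_bot] at hx ⊢
      rw [hx, map_zero]) (fun σ hσ => ⟨aut_aeval P σ hσ _, aut_aeval P σ hσ _,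
        aut_aeval P σ hσ _, aut_aeval P σ hσ _⟩) ((Submodule.mem_bot k).2 ((ap x).symm.trans hx))
    rw [Submodule.mem_bot] at e1 e2 e3 e4
    have z : ∀ (p : k[X]) (y : P.FF), y ≠ 0 → aeval P.M1 p * y = 0 → p = 0 := fun p y hy e => by
      by_contra h0
      exact mul_ne_zero (aev_ne hm h0) hy e
    exact Prod.ext (Prod.ext (Prod.ext (Subtype.ext (z _ _ one_ne_zero e1))
      (Subtype.ext (z _ _ P.W_ne e2))) (Subtype.ext (z _ _ P.Z_ne e3)))
      (Subtype.ext (z _ _ (y_ne hm (V_sq P) (hP_sep P).ne_zero) e4))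
  have rg : LinearMap.range Λ = LL k ((N + 4) • pol k P.M1) := by
    ext z
    constructor
    · rintro ⟨x, rfl⟩
      rw [ap]
      refine add_mem (add_mem (add_mem ?_ ?_) ?_) ?_
      · exact mem_of hm h1 one_ne_zero (by rw [natDegree_one]; omega) x.1.1.1.2
      · exact mem_of hm P.W_sq (fP_sep P).ne_zero (by rw [fP_deg]; omega) x.1.1.2.2
      · exact mem_of hm P.Z_sq (dP_sep P).ne_zero (by rw [dP_deg]; omega) x.1.2.2
      · exact mem_of hm (V_sq P) (hP_sep P).ne_zero (by rw [hP_deg]; omega) x.2.2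
    · intro hz
      obtain ⟨a, b, c, d, rfl⟩ := rep P z
      have fx : ∀ σ : P.FF ≃ₐ[k] P.FF, σ P.M1 = P.M1 → ∀ u : RatFunc k,
          σ (algebraMap _ P.FF u) = algebraMap _ P.FF u := fun σ hσ u => by
        rw [rat_eq, map_div₀, aut_aeval P σ hσ, aut_aeval P σ hσ]
      obtain ⟨e1, e2, e3, e4⟩ := split P _ (fun σ hσ x hx => inv_LL σ hσ hx)
        (fun σ hσ => ⟨fx σ hσ _, fx σ hσ _, fx σ hσ _, fx σ hσ _⟩) hz
      rw [rat_eq] at e1 e2 e3 e4
      obtain ⟨a', ha, f1⟩ := of_mem (r := N + 5) hm h1 separable_one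
        (by rw [natDegree_one]; omega) a.monic_denom a.isCoprime_num_denom e1
      obtain ⟨b', hb, f2⟩ := of_mem (r := N + 1) hm P.W_sq (fP_sep P)
        (by rw [fP_deg]; omega) b.monic_denom b.isCoprime_num_denom e2
      obtain ⟨c', hc, f3⟩ := of_mem (r := N + 3) hm P.Z_sq (dP_sep P)
        (by rw [dP_deg]; omega) c.monic_denom c.isCoprime_num_denom e3
      obtain ⟨d', hd, f4⟩ := of_mem (r := N + 1) hm (V_sq P) (hP_sep P)
        (by rw [hP_deg]; omega) d.monic_denom d.isCoprime_num_denom e4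
      refine ⟨(((⟨a', ha⟩, ⟨b', hb⟩), ⟨c', hc⟩), ⟨d', hd⟩), ?_⟩
      rw [ap, rat_eq P a, rat_eq P b, rat_eq P c, rat_eq P d, f1, f2, f3, f4]
  have fr : ∀ n : ℕ, Module.finrank k (degreeLT k n) = n := fun n => by
    rw [(degreeLTEquiv k n).finrank_eq, Module.finrank_fin_fun]
  rw [← rg, LinearMap.finrank_range_of_inj inj, Module.finrank_prod, Module.finrank_prod,
    Module.finrank_prod, fr, fr, fr, finrank_M1] at h
  push_cast at h
  omega

theorem genFF (k : Type) [Field k] [IsAlgClosed k] (P : F.Par k) : gen k P.FF = 7 := gen_FF P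

theorem finFF (k : Type) [Field k] [IsAlgClosed k] (P : F.Par k) :
    Module.finrank k⟮P.M1⟯ P.FF = 4 := finrank_M1 P

end Vale.Agent.P027M.R
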