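import Vale.Agent.P027M.R.Abs
import Vale.Agent.P027M.R.Gen
import Vale.Agent.P027M.G.Norm

/-!
# P027, route M, block RED: good reduction of the field `FF`
-/

set_option linter.all false

noncomputable section

namespace Vale.Agent.P027M.R

open Polynomial IntermediateField P025H373 P025H746 Vale.Agent.P019P P025H816 _root_.P027M.K
open Vale.Agent.P022 Vale.Agent.P027M.F

section general

variable {C k : Type} [Field C] [Field k] {O : ValuationSubring C} {res : O →+* k}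

namespace Rdn

variable {F G : Type} [Field F] [Field G] [Algebra C F] [Algebra k G]
  [CFF C F] [CFF k G] {R : Rdn res F G}

theorem dich (hs : Function.Surjective res) (x : F) : (∃ y, R.rd x y) ∨ R.rd x⁻¹ 0 := by
  by_cases hx : x = 0
  · exact Or.inl ⟨0, hx ▸ R.zero⟩
  obtain ⟨c, y, hc, hy, h⟩ := R.scale x hx
  have h0 := (_root_.map_ne_zero (algebraMap C F)).2 hc
  by_cases h1 : c⁻¹ ∈ O
  · have := R.mul (R.const (Cm.of (res := res) ⟨_, h1⟩)) h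
    rw [map_inv₀, inv_mul_cancel_left₀ h0] at this
    exact Or.inl ⟨_, this⟩
  · have h2 := Cm.of (res := res) ⟨c, (O.mem_or_inv_mem c).resolve_right h1⟩
    have h3 := R.mul (R.const h2) (R.inv h hy)
    rw [not_not.1 (mt (fun e => (h2.inv hs e).mem) h1), map_zero, zero_mul, mul_inv,
      mul_inv_cancel_left₀ h0] at h3
    exact Or.inr h3

theorem not_inv {x : F} {y : G} (h : R.rd x y) (hx : x ≠ 0) : ¬ R.rd x⁻¹ 0 := fun h' => by
  have := R.mul h h'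
  rw [mul_inv_cancel₀ hx, mul_zero] at this
  exact one_ne_zero (R.uniq R.one this)

theorem Lf.inv (hs : Function.Surjective res) {θ : RingAut F} {τ : RingAut G} (h : R.Lf θ τ) :
    R.Lf (θ⁻¹ : RingAut F) (τ⁻¹ : RingAut G) := by
  intro x y e
  by_cases hx : x = 0
  · rw [hx] at e ⊢
    rw [R.uniq e R.zero, map_zero, map_zero]
    exact R.zero
  have e1 : θ ((θ⁻¹ : RingAut F) x) = x := θ.apply_symm_apply x
  rcases dich (R := R) hs ((θ⁻¹ : RingAut F) x) with ⟨z, hz⟩ | hz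
  · have h1 := h _ _ hz
    rw [e1] at h1
    rw [R.uniq e h1]
    exact (τ.symm_apply_apply z).symm ▸ hz
  · have h1 := h _ _ hz
    rw [map_inv₀, e1, map_zero] at h1
    exact absurd h1 (not_inv e hx)

theorem zpow {x : F} {y : G} (h : R.rd x y) (hy : y ≠ 0) (n : ℤ) : R.rd (x ^ n) (y ^ n) := by
  cases n with
  | ofNat n => rw [Int.ofNat_eq_natCast, zpow_natCast, zpow_natCast]; exact pow h n
  | negSucc n => rw [zpow_negSucc, zpow_negSucc]; exact R.inv (pow h _) (pow_ne_zero _ hy)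

theorem prod {ι : Type*} (s : Finset ι) {x : ι → F} {y : ι → G} (h : ∀ i ∈ s, R.rd (x i) (y i)) :
    R.rd (∏ i ∈ s, x i) (∏ i ∈ s, y i) := by
  classical
  induction s using Finset.induction_on with
  | empty => rw [Finset.prod_empty, Finset.prod_empty]; exact R.one
  | insert a s ha ih =>
    rw [Finset.prod_insert ha, Finset.prod_insert ha]
    exact R.mul (h a (Finset.mem_insert_self _ _)) (ih fun i hi => h i (Finset.mem_insert_of_mem hi))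

/-- roots reduce to roots -/
theorem root (hs : Function.Surjective res) {x : F} {y : G} {n : ℕ} (hn : n ≠ 0)
    (h : R.rd (x ^ n) y) : ∃ z, R.rd x z ∧ z ^ n = y := by
  by_cases hx : x = 0
  · rw [hx, zero_pow hn] at h
    exact ⟨0, hx ▸ R.zero, (zero_pow hn).trans (R.uniq R.zero h)⟩
  rcases dich (R := R) hs x with ⟨z, hz⟩ | hz
  · exact ⟨z, hz, R.uniq (pow hz n) h⟩
  · have := pow hz n
    rw [inv_pow, zero_pow hn] at this
    exact absurd this (not_inv h (pow_ne_zero _ hx))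

/-- lifting of Kummer classes -/
theorem lift {m : ℕ} (hm : (m : k) ≠ 0) {h : Gˣ} (hh : h ∈ divU k G m) :
    ∃ (f : Fˣ) (u : Gˣ), f ∈ divU C F m ∧ R.rd f ((h * u ^ m : Gˣ) : G) := by
  have h0 := ne_zero_of_cast hm
  obtain ⟨x, h1, h2⟩ := R.sp_surj hm (nsmul_tP h0 hh)
  obtain ⟨f, g, h3, h4, rfl⟩ := R.exists_rep h0 h1
  rw [R.sp_tP h0 h3 h4, eq_comm, tP_eq_iff h0 hh (R.mem h3 h4)] at h2
  obtain ⟨u, hu⟩ := mem_powU.1 h2
  exact ⟨f, u, h3, by rwa [hu, mul_inv_cancel_left]⟩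

/-- descent of powers: the reduction is injective on Kummer classes -/
theorem pow_of {m : ℕ} (hm : (m : k) ≠ 0) {f : Fˣ} {g : Gˣ} (hf : f ∈ divU C F m)
    (h : R.rd f g) (hg : g ∈ powU G m) : f ∈ powU F m := by
  have h0 := ne_zero_of_cast hm
  rw [← tP_eq_zero_iff h0 hf]
  exact R.inj hm (nsmul_tP h0 hf)
    (by rw [R.sp_tP h0 hf h, tP_eq_zero_iff h0 (R.mem hf h)]; exact hg)

end Rdn

/-- the parameters reduce -/
structure CmP (res : O →+* k) (P : Par C) (Q : Par k) : Prop where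
  g : Cm res P.g Q.g
  g0 : Cm res P.g0 Q.g0
  i : Cm res P.i Q.i

/-- the descent data reduce -/
structure CmT (res : O →+* k) {P : Par C} {Q : Par k} (T : Tw P) (U : Tw Q) : Prop where
  g0' : Cm res T.g0' U.g0'
  ν : Cm res T.ν U.ν
  x : Cm res T.x U.x

variable {P : Par C} {Q : Par k} (hs : Function.Surjective res)
include hs

theorem CmP.c (h : CmP res P Q) : Cm res P.c Q.c :=
  (h.g.mul ((Cm.ofNat 3).sub h.g)).div hs (h.g.add Cm.one) Q.hp1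

theorem CmP.d1 (h : CmP res P Q) : Cm res P.d1 Q.d1 :=
  (((Cm.ofNat 3).sub h.g).mul (h.g.add Cm.one)).div hs (Cm.ofNat 4) Q.h4

theorem CmP.d2 (h : CmP res P Q) : Cm res P.d2 Q.d2 :=
  ((Cm.ofNat 4).mul h.g).div hs ((h.g.add Cm.one).pow 2) (pow_ne_zero _ Q.hp1)

theorem CmP.b2 (h : CmP res P Q) : Cm res P.b2 Q.b2 :=
  ((Cm.ofNat 4).mul (h.g.pow 3)).div hs ((h.g.add Cm.one).pow 2) (pow_ne_zero _ Q.hp1)

theorem CmT.θ {T : Tw P} {U : Tw Q} (h : CmP res P Q) (h' : CmT res T U) : Cm res T.θ U.θ :=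
  (h.i.mul h'.x).div hs h.g0 Q.hg0

theorem Cm.ne_of_val {a : C} {b : k} (h : Cm res a b) (e : O.valuation a = 1) : b ≠ 0 :=
  fun e' => ((h.val_lt hs).2 e').ne e

/-- the parameters of the special fibre -/
theorem exists_par (P : Par C) (h : ∀ z ∈ [2, 3, P.g, P.g + 1, 3 - P.g, P.g - 1, P.g + 3, P.g0],
    O.valuation z = 1) : ∃ Q : Par k, CmP res P Q := by
  simp only [List.forall_mem_cons] at h
  obtain ⟨h1, h2, h3, h4, h5, h6, h7, h8, -⟩ := h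
  obtain ⟨g, hg, cg⟩ := Cm.exists_of_val h3 hs
  obtain ⟨g0, hg0, cg0⟩ := Cm.exists_of_val h8 hs
  have hi : O.valuation P.i = 1 := by
    have := congrArg O.valuation P.hi
    rw [map_pow, Valuation.map_neg, map_one] at this
    exact (pow_eq_one_iff_of_nonneg zero_le two_ne_zero).1 this
  obtain ⟨i, -, ci⟩ := Cm.exists_of_val hi hs
  exact ⟨⟨g, g0, i, (ci.pow 2).uniq (P.hi ▸ Cm.one.neg), (Cm.ofNat 2).ne_of_val hs h1,
    (Cm.ofNat 3).ne_of_val hs h2, hg0, hg, (cg.add Cm.one).ne_of_val hs h4,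
    ((Cm.ofNat 3).sub cg).ne_of_val hs h5, (cg.sub Cm.one).ne_of_val hs h6,
    (cg.add (Cm.ofNat 3)).ne_of_val hs h7⟩, cg, cg0, ci⟩

/-- the descent data of the special fibre -/
theorem exists_tw (h : CmP res P Q) (T : Tw P) (h1 : O.valuation T.g0' = 1)
    (h2 : O.valuation T.ν = 1) (h3 : O.valuation T.x = 1) : ∃ U : Tw Q, CmT res T U := by
  obtain ⟨a, ha, ca⟩ := Cm.exists_of_val h1 hs
  obtain ⟨b, -, cb⟩ := Cm.exists_of_val h2 hs
  obtain ⟨c, -, cc⟩ := Cm.exists_of_val h3 hs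
  exact ⟨⟨a, b, c, ha, (cb.pow 2).uniq (T.hν ▸ ((h.c hs).mul h.g0).mul ca),
    (cc.pow 2).uniq (T.hx ▸ (cb.pow 3).mul (h.b2 hs))⟩, ca, cb, cc⟩

omit hs

theorem Dec.eq {σ : C ≃+* C} {τ : k ≃+* k} (hd : Dec res σ τ) {a a' : C} {b b' : k}
    (h : Cm res a b) (h' : Cm res a' b') (e : σ a = a') : τ b = b' :=
  (hd.cm _ _ h).uniq (e ▸ h')

theorem Dec.fx {T : Tw P} {U : Tw Q} {σ : RingAut C} {τ : RingAut k} (hd : Dec res σ τ)
    (h : CmP res P Q) (h' : CmT res T U) (e : T.Fx σ) : U.Fx τ :=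
  ⟨hd.eq h.i h.i e.1, hd.eq h.g0 h.g0 e.2.1, hd.eq h'.g0' h'.g0' e.2.2⟩

theorem Dec.sw {T : Tw P} {U : Tw Q} {σ : RingAut C} {τ : RingAut k} (hd : Dec res σ τ)
    (h : CmP res P Q) (h' : CmT res T U) (e : T.Sw σ) : U.Sw τ :=
  ⟨hd.eq h.i h.i.neg e.1, hd.eq h.g0 h'.g0' e.2.1, hd.eq h'.g0' h.g0 e.2.2⟩

theorem Dec.mem_Sig {T : Tw P} {U : Tw Q} {σ : RingAut C} {τ : RingAut k} (hd : Dec res σ τ)
    (h : CmP res P Q) (h' : CmT res T U) (e : σ ∈ T.Sig) : τ ∈ U.Sig :=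
  ⟨hd.eq h.g h.g e.1, hd.eq h'.ν h'.ν e.2.1, hd.eq h'.x h'.x e.2.2.1,
    e.2.2.2.imp (hd.fx h h') (hd.sw h h')⟩

variable [IsAlgClosed C] [IsAlgClosed k]

/-- **the reduction of the family** -/
structure RdF (res : O →+* k) (P : Par C) (Q : Par k) extends Rdn res P.FF Q.FF where
  hs : Function.Surjective res
  cp : CmP res P Q
  hT : T = P.M1
  m1 : rd P.M1 Q.M1
  w : rd P.W Q.W
  z : rd P.Z Q.Z

namespace RdF

variable (R : RdF res P Q)

theorem sq {a : C} {b : k} (h : Cm res a b) : R.rd (P.M1 ^ 2 - P.ι a) (Q.M1 ^ 2 - Q.ι b) :=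
  Rdn.sub (Rdn.pow R.m1 2) (R.const h)

theorem aux : R.rd ((1 - P.ι P.c) * P.ι P.g0 * P.M1) ((1 - Q.ι Q.c) * Q.ι Q.g0 * Q.M1) :=
  R.mul (R.mul (Rdn.sub R.one (R.const (R.cp.c R.hs))) (R.const R.cp.g0)) R.m1

theorem m2 : R.rd P.M2 Q.M2 :=
  Rdn.div (R.add R.aux R.z) (R.mul (R.ofNat 2) (R.sq R.cp.g0))
    (mul_ne_zero Q.two_ne (sq_sub_ne Q.M1_tr' _))

theorem m3 : R.rd P.M3 Q.M3 :=
  Rdn.div (Rdn.sub R.aux R.z) (R.mul (R.ofNat 2) (R.sq R.cp.g0))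
    (mul_ne_zero Q.two_ne (sq_sub_ne Q.M1_tr' _))

theorem y : R.rd P.Y Q.Y :=
  Rdn.div (R.mul R.w (R.sq (R.cp.g.mul R.cp.g0))) (Rdn.pow (R.sq R.cp.g0) 2)
    (pow_ne_zero _ (sq_sub_ne Q.M1_tr' _))

theorem n : R.rd P.N Q.N := R.add (R.add R.m1 R.m2) R.m3

theorem de : R.rd P.De Q.De :=
  R.mul (R.mul (Rdn.sub R.m1 R.m2) (Rdn.sub R.m2 R.m3)) (Rdn.sub R.m3 R.m1)

/-- criterion on the generators -/
theorem lf {θ : RingAut P.FF} {τ : RingAut Q.FF} {σ : C ≃+* C} {σ' : k ≃+* k}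
    (h1 : ∀ a, θ (P.ι a) = P.ι (σ a)) (h2 : ∀ b, τ (Q.ι b) = Q.ι (σ' b)) (hd : Dec res σ σ')
    (e1 : R.rd (θ P.M1) (τ Q.M1)) (e2 : R.rd (θ P.M2) (τ Q.M2)) (e3 : R.rd (θ P.Y) (τ Q.Y)) :
    R.Lf θ τ :=
  Rdn.lf_of R.hs h1 h2 hd (t := τ Q.M1) (R.hT ▸ e1)
    (fun b e => Q.M1_nc (σ'.symm b) (τ.injective (by rw [h2, σ'.apply_symm_apply]; exact e)))
    fun S a b => Q.FF_ind' S a (b _ _ R.m1 e1) (b _ _ R.m2 e2) (b _ _ R.y e3)

theorem lf_tau : R.Lf P.tau Q.tau :=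
  R.lf (σ := 1) (σ' := 1) P.tau_c Q.tau_c (Dec.refl res) (by rw [P.tau_M1, Q.tau_M1]; exact R.m1)
    (by rw [P.tau_M2, Q.tau_M2]; exact R.m3) (by rw [P.tau_Y, Q.tau_Y]; exact R.y)

theorem lf_rho : R.Lf P.rho Q.rho :=
  R.lf (σ := 1) (σ' := 1) P.rho_c Q.rho_c (Dec.refl res) (by rw [P.rho_M1, Q.rho_M1]; exact R.m2)
    (by rw [P.rho_M2, Q.rho_M2]; exact R.m3) (by rw [P.rho_Y, Q.rho_Y]; exact R.y)

theorem lf_iota : R.Lf P.iota Q.iota :=
  R.lf (σ := 1) (σ' := 1) P.iota_c Q.iota_c (Dec.refl res) (by rw [P.iota_M1, Q.iota_M1]; exact Rdn.neg R.m1)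
    (by rw [P.iota_M2, Q.iota_M2]; exact Rdn.neg R.m2)
    (by rw [P.iota_Y, Q.iota_Y]; exact R.mul (R.const R.cp.i) R.y)

theorem lf_rr {T : Tw P} {U : Tw Q} (h : CmT res T U) {σ : T.Sig} {τ : U.Sig}
    (hd : Dec res (σ : RingAut C) (τ : RingAut k)) : R.Lf (T.rr σ) (U.rr τ) := by
  rcases σ.2.2.2.2 with e | e
  · have e' := hd.fx R.cp h e
    exact R.lf (Tw.rr_c σ) (Tw.rr_c τ) hd (by rw [Tw.rr_M1 e, Tw.rr_M1 e']; exact R.m1)
      (by rw [Tw.rr_M2 e, Tw.rr_M2 e']; exact R.m2) (by rw [Tw.rr_Y e, Tw.rr_Y e']; exact R.y)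
  · have a := Tw.rr_sw e
    have b := Tw.rr_sw (hd.sw R.cp h e)
    have a1 : T.rr σ P.M1 = _ := a.m1
    have a2 : T.rr σ P.M2 = _ := a.m2
    have a3 : T.rr σ P.Y = _ := a.y
    have b1 : U.rr τ Q.M1 = _ := b.m1
    have b2 : U.rr τ Q.M2 = _ := b.m2
    have b3 : U.rr τ Q.Y = _ := b.y
    exact R.lf (Tw.rr_c σ) (Tw.rr_c τ) hd
      (by rw [a1, b1]; exact Rdn.div (R.const h.ν) R.m1 Q.M1_ne)
      (by rw [a2, b2]; exact Rdn.div (R.const h.ν) R.m2 Q.M2_ne)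
      (by
        rw [a3, b3]
        exact Rdn.div (R.mul (R.const (h.θ R.hs R.cp)) R.de) (R.mul (R.mul (R.ofNat 2) R.n) R.y)
          (mul_ne_zero (mul_ne_zero Q.two_ne Q.N_ne) Q.Y_ne))

end RdF

end general

theorem exists_rdF {C k : Type} [NontriviallyNormedField C] [IsUltrametricDist C] [IsAlgClosed C]
    [Field k] [IsAlgClosed k] {O : ValuationSubring C} {res : O →+* k}
    (hO : ∀ c, c ∈ O ↔ ‖c‖ ≤ 1) (hs : Function.Surjective res) {P : Par C} {Q : Par k}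
    (h : CmP res P Q) : Nonempty (RdF res P Q) := by
  haveI := (finite_of_notMem P.M1_nc).2
  obtain ⟨w, hw⟩ := nonempty_overG P.M1_tr
  obtain ⟨e, he⟩ := exists_e hO hs
  let s : k →+* kap w := (algebraMap (kC C) (kap w)).comp e
  have c : ∀ {a b}, Cm res a b → Qr w (P.ι a) (s b) := fun h => Qr.const he h
  have m : Qr w P.M1 (w.red P.M1) := ⟨hw.apply_T.le, rfl⟩
  have hW := Qr.sqrt (((m.mul ((m.pow 2).sub (c h.g0))).mul
    ((m.pow 2).sub ((c (h.c hs)).mul (c h.g0)))).mul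
    ((m.pow 2).sub ((c (h.d2 hs)).mul (c h.g0)))) P.W_sq'
  have h4 : Qr w 4 4 := by simpa only [map_ofNat] using c (Cm.ofNat 4)
  have hZ := Qr.sqrt (((h4.mul (c h.g0)).mul ((m.pow 2).sub ((c (h.d1 hs)).mul (c h.g0)))).mul
    ((m.pow 2).sub ((c (h.d2 hs)).mul (c h.g0)))) P.Z_sq'
  obtain ⟨φ, h1, h2, h3, h5⟩ := Q.exists_hom0 s (w.red P.M1) (w.red P.W) (w.red P.Z)
    (fun p hp e' => by
      rw [← eval₂_map] at e'
      exact hp ((Polynomial.map_eq_zero (e : k →+* kC C)).1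
        (transcendental_iff.1 hw.transc_red _ e')))
    (by rw [hW.2, Par.fP]; simp only [eval₂_mul, eval₂_sub, eval₂_pow, eval₂_X, eval₂_C, map_mul])
    (by
      rw [hZ.2, Par.dP]
      simp only [eval₂_mul, eval₂_sub, eval₂_pow, eval₂_X, eval₂_C, map_mul s, map_ofNat s])
  obtain ⟨R, h6, h7⟩ := exists_rdn hO hw he φ h1 h2 (by rw [finFF, finFF]) (by rw [genFF, genFF])
  exact ⟨⟨R, hs, h, h6, (h7 _ _).2 ⟨m.1, h2.symm⟩, (h7 _ _).2 ⟨hW.1, h3.symm⟩,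
    (h7 _ _).2 ⟨hZ.1, h5.symm⟩⟩⟩

/-- `ℚ̄` with a norm -/
def Qa (_ : AbsoluteValue Qb ℝ) : Type := Qb

/-- **good reduction of the family at every place over a prime** -/
theorem redF {k : Type} [Field k] [IsAlgClosed k] {O : ValuationSubring Qb} {res : O →+* k}
    {p : ℕ} (hp : p.Prime) (hv : O.valuation (p : Qb) < 1) (hs : Function.Surjective res)
    {P : Par Qb} {Q : Par k} (h : CmP res P Q) : Nonempty (RdF res P Q) := by
  obtain ⟨a, h1, h2, h3, -⟩ := G.norm O p hp hv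
  letI i1 : NontriviallyNormedField (Qa a) := { a.toNormedField with non_trivial := h3 }
  haveI i2 : IsUltrametricDist (Qa a) :=
    IsUltrametricDist.isUltrametricDist_of_isNonarchimedean_norm h1
  exact @exists_rdF (Qa a) k i1 i2 (inferInstanceAs (IsAlgClosed Qb)) _ _ O res
    (fun c => (h2 c).symm) hs P Q h

end Vale.Agent.P027M.R
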