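import Vale.Agent.P027M.K.TT

/-!
# P027, route M, block RED: good reduction of function fields (definitions, general lemmas)
-/

set_option linter.all false

noncomputable section

namespace Vale.Agent.P027M.R

open Vale.Agent.P019P P025H816 _root_.P027M.K

variable {C k : Type} [Field C] [Field k] {O : ValuationSubring C}

/-- `a` is integral and reduces to `b` -/
def Cm (res : O →+* k) (a : C) (b : k) : Prop := ∃ h : a ∈ O, res ⟨a, h⟩ = b

/-- `σ` preserves `O` and induces `τ` on the residue field -/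
structure Dec (res : O →+* k) (σ : C ≃+* C) (τ : k ≃+* k) : Prop where
  mem : ∀ c, σ c ∈ O ↔ c ∈ O
  cm : ∀ a b, Cm res a b → Cm res (σ a) (τ b)

/-- **a good reduction** of `F / C` to `G / k`; `rd x y` says that `x` is integral with
reduction `y` -/
structure Rdn (res : O →+* k) (F G : Type) [Field F] [Field G] [Algebra C F] [Algebra k G]
    [CFF C F] [CFF k G] where
  rd : F → G → Prop
  uniq : ∀ {x y y'}, rd x y → rd x y' → y = y'
  add : ∀ {x y x' y'}, rd x y → rd x' y' → rd (x + x') (y + y')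
  mul : ∀ {x y x' y'}, rd x y → rd x' y' → rd (x * x') (y * y')
  inv : ∀ {x y}, rd x y → y ≠ 0 → rd x⁻¹ y⁻¹
  const : ∀ {a b}, Cm res a b → rd (algebraMap C F a) (algebraMap k G b)
  surj : ∀ y, ∃ x, rd x y
  scale : ∀ x, x ≠ 0 → ∃ (c : C) (y : G), c ≠ 0 ∧ y ≠ 0 ∧ rd (algebraMap C F c * x) y
  /-- the coordinate which defines the Gauss norm -/
  T : F
  stab : ∀ (θ : F ≃+* F) (σ : C ≃+* C) (y : G),
    (∀ a, θ (algebraMap C F a) = algebraMap C F (σ a)) → (∀ c, σ c ∈ O ↔ c ∈ O) → rd (θ T) y →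
    (∀ b, y ≠ algebraMap k G b) → ∀ x, rd x 0 → rd (θ x) 0
  /-- specialisation of divisor classes -/
  sp : Pc C F →+ Pc k G
  mem : ∀ {m : ℕ} {f : Fˣ} {g : Gˣ}, f ∈ divU C F m → rd f g → g ∈ divU k G m
  sp_tP : ∀ {m : ℕ} {f : Fˣ} {g : Gˣ}, m ≠ 0 → f ∈ divU C F m → rd f g →
    sp (tP C m f) = tP k m g
  inj : ∀ {m : ℕ} {x : Pc C F}, (m : k) ≠ 0 → m • x = 0 → sp x = 0 → x = 0
  gen : gen C F = gen k G
  chr : ∀ m : ℕ, (m : k) ≠ 0 → (m : C) ≠ 0

namespace Cm

variable {res : O →+* k} {a a' : C} {b b' : k}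

theorem mem (h : Cm res a b) : a ∈ O := h.1

theorem uniq (h : Cm res a b) (h' : Cm res a b') : b = b' := h.2.symm.trans h'.2

theorem of (a : O) : Cm res (a : C) (res a) := ⟨a.2, rfl⟩

theorem add (h : Cm res a b) (h' : Cm res a' b') : Cm res (a + a') (b + b') :=
  ⟨add_mem h.1 h'.1, by rw [← h.2, ← h'.2, ← map_add]; rfl⟩

theorem mul (h : Cm res a b) (h' : Cm res a' b') : Cm res (a * a') (b * b') :=
  ⟨mul_mem h.1 h'.1, by rw [← h.2, ← h'.2, ← map_mul]; rfl⟩

theorem neg (h : Cm res a b) : Cm res (-a) (-b) :=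
  ⟨neg_mem h.1, by rw [← h.2, ← map_neg]; rfl⟩

theorem sub (h : Cm res a b) (h' : Cm res a' b') : Cm res (a - a') (b - b') := by
  rw [sub_eq_add_neg, sub_eq_add_neg]; exact h.add h'.neg

theorem nat (n : ℕ) : Cm res (n : C) (n : k) :=
  ⟨natCast_mem O n, by rw [← map_natCast res n]; rfl⟩

theorem int (n : ℤ) : Cm res (n : C) (n : k) :=
  ⟨intCast_mem O n, by rw [← map_intCast res n]; rfl⟩

theorem ofNat (n : ℕ) [n.AtLeastTwo] : Cm res (OfNat.ofNat n : C) (OfNat.ofNat n : k) := nat n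

theorem one : Cm res (1 : C) (1 : k) := by simpa using nat (res := res) 1

theorem zero : Cm res (0 : C) (0 : k) := by simpa using nat (res := res) 0

theorem pow (h : Cm res a b) (n : ℕ) : Cm res (a ^ n) (b ^ n) := by
  induction n with
  | zero => rw [pow_zero, pow_zero]; exact one
  | succ n ih => rw [pow_succ, pow_succ]; exact ih.mul h

theorem ne (h : Cm res a b) (hb : b ≠ 0) : a ≠ 0 := by
  rintro rfl
  exact hb (h.uniq zero)

/-- the kernel of a surjective residue map is the maximal ideal -/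
theorem val_lt (hs : Function.Surjective res) (h : Cm res a b) : O.valuation a < 1 ↔ b = 0 := by
  obtain ⟨ha, rfl⟩ := h
  have h1 : RingHom.ker res = IsLocalRing.maximalIdeal O :=
    IsLocalRing.eq_maximalIdeal (RingHom.ker_isMaximal_of_surjective res hs)
  rw [← RingHom.mem_ker, h1]
  exact (O.valuation_lt_one_iff ⟨a, ha⟩).symm

theorem inv (hs : Function.Surjective res) (h : Cm res a b) (hb : b ≠ 0) : Cm res a⁻¹ b⁻¹ := by
  have h1 : O.valuation a = 1 :=
    le_antisymm (O.valuation_le_one ⟨a, h.1⟩) (not_lt.1 fun e => hb ((h.val_lt hs).1 e))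
  have h2 : a⁻¹ ∈ O := by rw [← O.valuation_le_one_iff, map_inv₀, h1, inv_one]
  have h3 := h.mul (of (res := res) ⟨a⁻¹, h2⟩)
  rw [mul_inv_cancel₀ (h.ne hb)] at h3
  exact ⟨h2, eq_inv_of_mul_eq_one_right (h3.uniq one)⟩

theorem div (hs : Function.Surjective res) (h : Cm res a b) (h' : Cm res a' b') (hb : b' ≠ 0) :
    Cm res (a / a') (b / b') := by
  rw [div_eq_mul_inv, div_eq_mul_inv]; exact h.mul (h'.inv hs hb)

theorem exists_of_val (h : O.valuation a = 1) (hs : Function.Surjective res) :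
    ∃ b, b ≠ 0 ∧ Cm res a b := by
  have h1 : a ∈ O := by rw [← O.valuation_le_one_iff, h]
  have h2 := of (res := res) ⟨a, h1⟩
  exact ⟨_, fun e => ((h2.val_lt hs).2 e).ne h, h2⟩

end Cm

theorem Dec.refl (res : O →+* k) : Dec res 1 1 := ⟨fun _ => Iff.rfl, fun _ _ h => h⟩

namespace Rdn

variable {res : O →+* k} {F G : Type} [Field F] [Field G] [Algebra C F] [Algebra k G]
  [CFF C F] [CFF k G] (R : Rdn res F G)

theorem nat (n : ℕ) : R.rd n n := by simpa using R.const (Cm.nat n)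

theorem ofNat (n : ℕ) [n.AtLeastTwo] : R.rd (OfNat.ofNat n) (OfNat.ofNat n) := R.nat n

theorem one : R.rd 1 1 := by simpa using R.nat 1

theorem zero : R.rd 0 0 := by simpa using R.nat 0

variable {R} {x x' : F} {y y' : G}

theorem neg (h : R.rd x y) : R.rd (-x) (-y) := by
  simpa using R.mul (R.const Cm.one.neg) h

theorem sub (h : R.rd x y) (h' : R.rd x' y') : R.rd (x - x') (y - y') := by
  rw [sub_eq_add_neg, sub_eq_add_neg]; exact R.add h (neg h')

theorem div (h : R.rd x y) (h' : R.rd x' y') (hy : y' ≠ 0) : R.rd (x / x') (y / y') := by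
  rw [div_eq_mul_inv, div_eq_mul_inv]; exact R.mul h (R.inv h' hy)

theorem pow (h : R.rd x y) (n : ℕ) : R.rd (x ^ n) (y ^ n) := by
  induction n with
  | zero => rw [pow_zero, pow_zero]; exact R.one
  | succ n ih => rw [pow_succ, pow_succ]; exact R.mul ih h

theorem ne (h : R.rd x y) (hy : y ≠ 0) : x ≠ 0 := by
  rintro rfl
  exact hy (R.uniq h R.zero)

variable (R)

/-- `θ` reduces to `τ` -/
def Lf (θ : F ≃+* F) (τ : G ≃+* G) : Prop := ∀ x y, R.rd x y → R.rd (θ x) (τ y)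

theorem lf_one : R.Lf 1 1 := fun _ _ h => h

variable {R}

theorem Lf.mul {θ θ' : F ≃+* F} {τ τ' : G ≃+* G} (h : R.Lf θ τ) (h' : R.Lf θ' τ') :
    R.Lf (θ * θ') (τ * τ') := fun x y e => h _ _ (h' x y e)

theorem Lf.pow {θ : F ≃+* F} {τ : G ≃+* G} (h : R.Lf θ τ) (n : ℕ) : R.Lf (θ ^ n) (τ ^ n) := by
  induction n with
  | zero => rw [pow_zero, pow_zero]; exact R.lf_one
  | succ n ih => rw [pow_succ, pow_succ]; exact ih.mul h

/-- criterion: it is enough to look at the constants and at generators -/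
theorem lf_of (hs : Function.Surjective res) {θ : F ≃+* F} {τ : G ≃+* G} {σ : C ≃+* C}
    {σ' : k ≃+* k} (h1 : ∀ a, θ (algebraMap C F a) = algebraMap C F (σ a))
    (h2 : ∀ b, τ (algebraMap k G b) = algebraMap k G (σ' b)) (hd : Dec res σ σ') {t : G}
    (h3 : R.rd (θ R.T) t) (h4 : ∀ b, t ≠ algebraMap k G b)
    (h5 : ∀ S : Subfield G, (∀ b, algebraMap k G b ∈ S) →
      (∀ x y, R.rd x y → R.rd (θ x) (τ y) → y ∈ S) → ∀ y, y ∈ S) : R.Lf θ τ := by
  let S : Subfield G :=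
    { carrier := {y | ∃ x, R.rd x y ∧ R.rd (θ x) (τ y)}
      mul_mem' := by
        rintro _ _ ⟨x, a1, a2⟩ ⟨x', b1, b2⟩
        exact ⟨x * x', R.mul a1 b1, by rw [map_mul, map_mul]; exact R.mul a2 b2⟩
      one_mem' := ⟨1, R.one, by rw [map_one, map_one]; exact R.one⟩
      add_mem' := by
        rintro _ _ ⟨x, a1, a2⟩ ⟨x', b1, b2⟩
        exact ⟨x + x', R.add a1 b1, by rw [map_add, map_add]; exact R.add a2 b2⟩
      zero_mem' := ⟨0, R.zero, by rw [map_zero, map_zero]; exact R.zero⟩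
      neg_mem' := by
        rintro _ ⟨x, a1, a2⟩
        exact ⟨-x, neg a1, by rw [map_neg, map_neg]; exact neg a2⟩
      inv_mem' := by
        rintro y ⟨x, a1, a2⟩
        by_cases hy : y = 0
        · exact ⟨x, by rwa [hy, inv_zero, ← hy], by rwa [hy, inv_zero, ← hy]⟩
        · exact ⟨x⁻¹, R.inv a1 hy, by
            rw [map_inv₀, map_inv₀]; exact R.inv a2 ((map_ne_zero τ).2 hy)⟩ }
  intro x y h
  obtain ⟨x₀, a1, a2⟩ : y ∈ S := h5 S (fun b => by
    obtain ⟨a, rfl⟩ := hs b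
    exact ⟨_, R.const (Cm.of a), by rw [h1, h2]; exact R.const (hd.cm _ _ (Cm.of a))⟩)
    (fun x y a1 a2 => ⟨x, a1, a2⟩) y
  have h6 := R.stab θ σ t h1 hd.mem h3 h4 _ (sub_self y ▸ sub h a1)
  have h7 := R.add h6 a2
  rwa [← map_add, sub_add_cancel, zero_add] at h7

/-- every torsion class has a representative with non-zero reduction -/
theorem exists_rep {m : ℕ} (hm : m ≠ 0) {x : Pc C F} (hx : m • x = 0) :
    ∃ (f : Fˣ) (g : Gˣ), f ∈ divU C F m ∧ R.rd f g ∧ tP C m f = x := by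
  haveI : IsAlgClosed C := CFF.ac F
  obtain ⟨f, hf, rfl⟩ := exists_tP hm hx
  obtain ⟨c, y, hc, hy, h⟩ := R.scale f f.ne_zero
  obtain ⟨d, hd⟩ := IsAlgClosed.exists_pow_nat_eq c (Nat.pos_of_ne_zero hm)
  let u : Fˣ := Units.mk0 (algebraMap C F c) ((map_ne_zero _).2 hc)
  have hu : u ∈ powU F m := mem_powU'.2 ⟨algebraMap C F d, by rw [← map_pow, hd]; rfl⟩
  refine ⟨u * f, Units.mk0 y hy, mul_mem (powU_le m hu) hf, h, ?_⟩
  rw [tP_mul hm (powU_le m hu) hf, (tP_eq_zero_iff hm (powU_le m hu)).2 hu, zero_add]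

/-- **equivariance on torsion classes** -/
theorem sp_act {θ : SL C F} {τ : SL k G} (h : R.Lf θ τ) {m : ℕ} (hm : m ≠ 0) {x : Pc C F}
    (hx : m • x = 0) : R.sp (actP θ x) = actP τ (R.sp x) := by
  obtain ⟨f, g, h1, h2, rfl⟩ := R.exists_rep hm hx
  rw [actP_tP θ hm h1, R.sp_tP hm h1 h2, actP_tP τ hm (R.mem h1 h2)]
  exact R.sp_tP hm (act_mem θ h1) (h _ _ h2)

variable (R)

/-- specialisation on the `m`-torsion -/
def spT (m : ℕ) : tors (Pc C F) m →+ tors (Pc k G) m :=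
  (R.sp.comp (tors (Pc C F) m).subtype).codRestrict _ fun x => by
    rw [mem_tors, ← map_nsmul]
    exact (congrArg _ (Subtype.ext x.2 : m • x = 0)).trans (map_zero _)

theorem spT_coe (m : ℕ) (x : tors (Pc C F) m) : (R.spT m x : Pc k G) = R.sp x := rfl

theorem spT_bij {m : ℕ} (hm : (m : k) ≠ 0) : Function.Bijective (R.spT m) := by
  have h1 := card_pic_tors (k := C) (F := F) (R.chr m hm)
  have h2 := card_pic_tors (k := k) (F := G) hm
  haveI : Finite (tors (Pc k G) m) :=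
    Nat.finite_of_card_ne_zero (by rw [h2]; exact pow_ne_zero _ (ne_zero_of_cast hm))
  refine Function.Injective.bijective_of_nat_card_le ((injective_iff_map_eq_zero _).2 fun x hx =>
    Subtype.ext (R.inj hm x.2 (congrArg Subtype.val hx))) ?_
  rw [h1, h2, R.gen]

/-- **the specialisation is onto on the torsion prime to `p`** -/
theorem sp_surj {m : ℕ} (hm : (m : k) ≠ 0) {y : Pc k G} (hy : m • y = 0) :
    ∃ x : Pc C F, m • x = 0 ∧ R.sp x = y := by
  obtain ⟨x, hx⟩ := (R.spT_bij hm).2 ⟨y, hy⟩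
  exact ⟨x, x.2, congrArg Subtype.val hx⟩

/-- **reduction of Kummer classes** -/
def hk {m : ℕ} (hm : (m : k) ≠ 0) : HK C F m ≃* HK k G m :=
  MulEquiv.toAdditive.symm ((hkP (ne_zero_of_cast hm)).trans
    ((AddEquiv.ofBijective _ (R.spT_bij hm)).trans (hkP (ne_zero_of_cast hm)).symm))

theorem hkP_hk {m : ℕ} (hm : (m : k) ≠ 0) (x : HK C F m) :
    (hkP (ne_zero_of_cast hm) (Additive.ofMul (R.hk hm x)) : Pc k G) =
      R.sp (hkP (ne_zero_of_cast hm) (Additive.ofMul x)) :=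
  congrArg Subtype.val ((hkP (ne_zero_of_cast hm)).apply_symm_apply _)

variable {R}

theorem hk_mk {m : ℕ} (hm : (m : k) ≠ 0) (f : divU C F m) (g : divU k G m)
    (h : R.rd (f : Fˣ) (g : Gˣ)) : R.hk hm (QuotientGroup.mk f) = QuotientGroup.mk g := by
  refine Additive.ofMul.injective ((hkP (ne_zero_of_cast hm)).injective (Subtype.ext ?_))
  rw [hkP_hk, hkP_mk, hkP_mk, R.sp_tP (ne_zero_of_cast hm) f.2 h]

theorem hk_act {θ : SL C F} {τ : SL k G} (h : R.Lf θ τ) {m : ℕ} (hm : (m : k) ≠ 0)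
    (x : HK C F m) : R.hk hm (actH C F m θ x) = actH k G m τ (R.hk hm x) := by
  refine Additive.ofMul.injective ((hkP (ne_zero_of_cast hm)).injective (Subtype.ext ?_))
  rw [hkP_hk, hkP_actH, hkP_actH, hkP_hk, sp_act h (ne_zero_of_cast hm) (hkP _ _).2]

variable (R) (l : ℕ) [Fact l.Prime]

theorem tm_bij (hl : (l : k) ≠ 0) : Function.Bijective (TM.map l R.sp) := by
  have hr : ∀ r : ℕ, ((l ^ r : ℕ) : k) ≠ 0 := fun r => by
    rw [Nat.cast_pow]; exact pow_ne_zero _ hl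
  refine ⟨(injective_iff_map_eq_zero _).2 fun x hx => TM.ext fun r =>
    R.inj (hr r) (TM.pow_smul_cp x r) (congrArg (TM.cp r) hx), fun y => ?_⟩
  choose x h1 h2 using fun r => R.sp_surj (hr r) (TM.pow_smul_cp y r)
  refine ⟨TM.mk x (by simpa using h1 0) fun r => ?_, TM.ext fun r => h2 r⟩
  refine sub_eq_zero.1 (R.inj (hr r) ?_ ?_)
  · rw [nsmul_sub, h1, ← mul_nsmul', ← pow_succ, h1, sub_zero]
  · rw [map_sub, map_nsmul, h2, h2, TM.cp_succ, sub_self]

/-- **reduction of Tate modules** -/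
def tt (hl : (l : k) ≠ 0) : TT l C F ≃ₗ[ℤ_[l]] TT l k G :=
  LinearEquiv.ofBijective (TM.map l R.sp) (R.tm_bij l hl)

theorem cp_tt (hl : (l : k) ≠ 0) (x : TT l C F) (r : ℕ) :
    TM.cp r (R.tt l hl x) = R.sp (TM.cp r x) := rfl

variable {R l}

theorem tt_act {θ : SL C F} {τ : SL k G} (h : R.Lf θ τ) (hl : (l : k) ≠ 0) (x : TT l C F) :
    R.tt l hl (act l C F θ x) = act l k G τ (R.tt l hl x) :=
  TM.ext fun r => by
    rw [cp_tt, cp_act, cp_act, cp_tt, sp_act h (lp_ne l r) (TM.pow_smul_cp x r)]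

end Rdn

end Vale.Agent.P027M.R
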