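import Vale.Agent.P027M.R.Defs
import Vale.Agent.P027M.G.Key

/-!
# P027, route M, block RED: a good reduction from an absolute value
-/

set_option linter.all false

noncomputable section

namespace Vale.Agent.P027M.R

open Polynomial IntermediateField P025H373 P025H746 Vale.Agent.P019P P025H492 P025H816
  _root_.P027M.K Vale.Agent.P027M.Gs

variable {C F : Type} [NontriviallyNormedField C] [IsUltrametricDist C] [Field F] [Algebra C F]
  {w : NV C F}

theorem overG_of {x : F} (hx : w x ≤ 1) (h : Transcendental (kC C) (w.red x)) : w.OverG x := by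
  intro P
  by_cases hP : P = 0
  · rw [hP, map_zero, map_zero, gp_zero]
  obtain ⟨i, hi⟩ := exists_coeff_eq P
  have h0 : gp P ≠ 0 := fun e => hP (gp_eq_zero.1 e)
  have hc : P.coeff i ≠ 0 := fun e => h0 (by rw [← hi, e, norm_zero])
  have h1 : gp (Polynomial.C (P.coeff i)⁻¹ * P) = 1 := by
    rw [gp_mul, gp_C, norm_inv, hi, inv_mul_cancel₀ h0]
  have h2 : pred (Polynomial.C (P.coeff i)⁻¹ * P) ≠ 0 := by
    rw [Ne, pred_eq_zero h1.le, h1]; exact lt_irrefl _
  have h3 := w_eq_one (NV.aeval_le hx h1.le) (by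
    rw [NV.red_aeval hx h1.le]
    exact fun e => h2 (transcendental_iff.1 h _ e))
  rw [map_mul, aeval_C, map_mul, w.ext', norm_inv, hi] at h3
  exact ((inv_mul_eq_one₀ h0).1 h3).symm

/-- `x` is integral with reduction `y` -/
def Qr (w : NV C F) (x : F) (y : kap w) : Prop := w x ≤ 1 ∧ w.red x = y

theorem Qr.add {x x' : F} {y y' : kap w} (h : Qr w x y) (h' : Qr w x' y') :
    Qr w (x + x') (y + y') := ⟨NV.add_le h.1 h'.1, by rw [NV.red_add h.1 h'.1, h.2, h'.2]⟩

theorem Qr.sub {x x' : F} {y y' : kap w} (h : Qr w x y) (h' : Qr w x' y') :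
    Qr w (x - x') (y - y') := ⟨NV.sub_le h.1 h'.1, by rw [NV.red_sub h.1 h'.1, h.2, h'.2]⟩

theorem Qr.mul {x x' : F} {y y' : kap w} (h : Qr w x y) (h' : Qr w x' y') :
    Qr w (x * x') (y * y') := ⟨NV.mul_le_one h.1 h'.1, by rw [NV.red_mul h.1 h'.1, h.2, h'.2]⟩

theorem Qr.pow {x : F} {y : kap w} (h : Qr w x y) (n : ℕ) : Qr w (x ^ n) (y ^ n) :=
  ⟨NV.pow_le_one' h.1 n, by rw [NV.red_pow h.1, h.2]⟩

theorem Qr.one {x : F} {y : kap w} (h : Qr w x y) (hy : y ≠ 0) : w x = 1 :=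
  w_eq_one h.1 (h.2 ▸ hy)

theorem Qr.inv {x : F} {y : kap w} (h : Qr w x y) (hy : y ≠ 0) : Qr w x⁻¹ y⁻¹ :=
  ⟨by rw [map_inv₀, h.one hy, inv_one], by rw [NV.red_inv (h.one hy), h.2]⟩

theorem Qr.sqrt {x a : F} {b : kap w} (h : Qr w a b) (e : x ^ 2 = a) :
    w x ≤ 1 ∧ w.red x ^ 2 = b := by
  have h1 : w x ≤ 1 := by
    have := h.1
    rw [← e, map_pow] at this
    exact (pow_le_one_iff_of_nonneg (w.av.nonneg _) two_ne_zero).1 this
  exact ⟨h1, by rw [← NV.red_pow h1, e, h.2]⟩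

variable {k : Type} [Field k] {O : ValuationSubring C} {res : O →+* k}

/-- the residue field is `k` -/
theorem exists_e (hO : ∀ c, c ∈ O ↔ ‖c‖ ≤ 1) (hs : Function.Surjective res) :
    ∃ e : k ≃+* kC C, ∀ a b, Cm res a b → ‖a‖ ≤ 1 ∧ cred a = e b := by
  obtain rfl : O = OC C := ValuationSubring.ext _ _ hO
  have h1 : RingHom.ker res = IsLocalRing.maximalIdeal (OC C) :=
    IsLocalRing.eq_maximalIdeal (RingHom.ker_isMaximal_of_surjective res hs)
  refine ⟨(RingHom.quotientKerEquivOfSurjective hs).symm.trans (Ideal.quotEquivOfEq h1), ?_⟩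
  rintro a b ⟨ha, rfl⟩
  refine ⟨ha, ?_⟩
  have h2 : (RingHom.quotientKerEquivOfSurjective hs).symm (res ⟨a, ha⟩) =
      Ideal.Quotient.mk _ ⟨a, ha⟩ := by
    rw [RingEquiv.symm_apply_eq]; rfl
  exact (cred_of ha).trans (congrArg (Ideal.quotEquivOfEq h1) h2).symm

theorem Qr.const {e : k ≃+* kC C} (he : ∀ a b, Cm res a b → ‖a‖ ≤ 1 ∧ cred a = e b) {a : C}
    {b : k} (h : Cm res a b) : Qr w (algebraMap C F a) (algebraMap (kC C) (kap w) (e b)) :=
  ⟨by rw [w.ext']; exact (he a b h).1, by rw [NV.red_algebraMap (he a b h).1, (he a b h).2]⟩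

variable [IsAlgClosed C] [CFF C F] {G : Type} [Field G] [Algebra k G] [CFF k G]

theorem onto {T : F} (hw : w.OverG T) (e : k ≃+* kC C) (φ : G →+* kap w)
    (hφ : ∀ b, φ (algebraMap k G b) = algebraMap (kC C) (kap w) (e b)) {t : G}
    (ht : φ t = w.red T) (hd : Module.finrank C⟮T⟯ F ≤ Module.finrank k⟮t⟯ G) :
    Full w T ∧ Function.Surjective φ := by
  classical
  haveI : FiniteDimensional C⟮T⟯ F := CFld_finite hw.transc
  haveI := hw.finite
  have hnc : ∀ b : k, t ≠ algebraMap k G b := fun b h => hw.red_ne (e b) (by rw [← ht, h, hφ])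
  haveI := (finite_of_notMem hnc).2
  have h0 : ∀ y : (kC C)⟮w.red T⟯, ∃ u : k⟮t⟯, φ u = y := by
    rintro ⟨y, hy⟩
    have : y ∈ (k⟮t⟯.toSubfield.map φ) := by
      refine (Subfield.closure_le (t := k⟮t⟯.toSubfield.map φ)).2 ?_ hy
      rintro _ (⟨c, rfl⟩ | rfl)
      · exact ⟨_, k⟮t⟯.algebraMap_mem (e.symm c), by rw [hφ, e.apply_symm_apply]⟩
      · exact ⟨t, mem_adjoin_simple_self k t, ht⟩
    obtain ⟨u, h1, h2⟩ := this
    exact ⟨⟨u, h1⟩, h2⟩
  choose u hu using h0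
  let b := Module.finBasis k⟮t⟯ G
  have key : ∀ g : Fin (Module.finrank k⟮t⟯ G) → (kC C)⟮w.red T⟯,
      ∑ i, g i • φ (b i) = φ (∑ i, u (g i) • b i) := fun g => by
    rw [map_sum]
    exact Finset.sum_congr rfl fun i _ => by
      rw [IntermediateField.smul_def, IntermediateField.smul_def, smul_eq_mul, smul_eq_mul,
        map_mul, hu]
  have hli : LinearIndependent (kC C)⟮w.red T⟯ fun i => φ (b i) := by
    rw [Fintype.linearIndependent_iff]
    intro g hg i
    rw [key, map_eq_zero] at hg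
    have h1 := Fintype.linearIndependent_iff.1 b.linearIndependent _ hg i
    exact Subtype.ext (by rw [← hu, h1]; exact map_zero φ)
  have h2 := hli.fintype_card_le_finrank
  rw [Fintype.card_fin] at h2
  have hF : Full w T := ⟨hw, hd.trans h2⟩
  refine ⟨hF, fun y => ?_⟩
  haveI : Nonempty (Fin (Module.finrank k⟮t⟯ G)) := ⟨⟨0, Module.finrank_pos⟩⟩
  have h3 := hli.span_eq_top_of_card_eq_finrank
    (by rw [Fintype.card_fin]; exact le_antisymm h2 (hF.deg_eq.le.trans hd))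
  obtain ⟨g, hg⟩ := (Submodule.mem_span_range_iff_exists_fun _).1
    (h3 ▸ Submodule.mem_top : y ∈ Submodule.span (kC C)⟮w.red T⟯ (Set.range fun i => φ (b i)))
  exact ⟨_, by rw [← key, hg]⟩

theorem stab0 {T : F} (h : Full w T) (θ : F ≃+* F) (σ : C ≃+* C)
    (h1 : ∀ a, θ (algebraMap C F a) = algebraMap C F (σ a)) (h2 : ∀ c, ‖σ c‖ ≤ 1 ↔ ‖c‖ ≤ 1)
    (h3 : w.OverG (θ T)) (x : F) : w (θ x) ≤ 1 ↔ w x ≤ 1 := by
  haveI := h.fin
  have e : ∀ P : C[X], θ (aeval T P) = aeval (θ T) (P.map (σ : C →+* C)) := fun P =>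
    Polynomial.map_aeval_eq_aeval_map (φ := (σ : C →+* C)) (ψ := (θ : F →+* F))
      (RingHom.ext fun a => (h1 a).symm) P T
  have hne : w.ring.comap (θ : F →+* F) ≠ ⊤ := by
    obtain ⟨c, hc⟩ := NormedField.exists_one_lt_norm C
    intro e
    have : algebraMap C F (σ.symm c) ∈ w.ring.comap (θ : F →+* F) := e ▸ trivial
    change w (θ _) ≤ 1 at this
    rw [h1, σ.apply_symm_apply, w_const] at this
    linarith
  obtain ⟨v, h4, h5⟩ := P025H458.exists_NV h.og.transc (w.ring.comap (θ : F →+* F))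
    (fun P Q hQ hPQ => by
      change w (θ _) ≤ 1
      rw [map_div₀, map_div₀, e, e, h3, h3]
      refine div_le_one_of_le₀ (gp_le_iff.2 fun i => ?_) (gp_nonneg _)
      obtain ⟨j, hj⟩ := exists_coeff_eq Q
      have h6 : Q.coeff j ≠ 0 := fun e => hQ (gp_eq_zero.1 (by rw [← hj, e, norm_zero]))
      have h7 := (h2 (P.coeff i / Q.coeff j)).2 (by
        rw [norm_div, hj]
        exact div_le_one_of_le₀ (gp_le_iff.1 hPQ i) (gp_nonneg _))
      rw [map_div₀, norm_div, div_le_one (norm_pos_iff.2 ((_root_.map_ne_zero σ).2 h6))] at h7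
      have h8 := gp_le_iff.1 (le_refl (gp (Q.map (σ : C →+* C)))) j
      rw [coeff_map] at h8 ⊢
      exact h7.trans h8) hne
  rw [h.uniq h4] at h5
  exact (SetLike.ext_iff.1 h5 x).symm

/-- **the abstract construction** -/
theorem exists_rdn (hO : ∀ c, c ∈ O ↔ ‖c‖ ≤ 1) {T : F} (hw : w.OverG T) {e : k ≃+* kC C}
    (he : ∀ a b, Cm res a b → ‖a‖ ≤ 1 ∧ cred a = e b) (φ : G →+* kap w)
    (hφ : ∀ b, φ (algebraMap k G b) = algebraMap (kC C) (kap w) (e b)) {t : G}
    (ht : φ t = w.red T) (hd : Module.finrank C⟮T⟯ F ≤ Module.finrank k⟮t⟯ G)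
    (hg : gen C F ≤ gen k G) :
    ∃ R : Rdn res F G, R.T = T ∧ ∀ x y, R.rd x y ↔ Qr w x (φ y) := by
  obtain ⟨hF, hs⟩ := onto hw e φ hφ ht hd
  haveI := hF.cff
  let E : G ≃+* kap w := RingEquiv.ofBijective φ ⟨φ.injective, hs⟩
  have hE : ∀ y, E y = φ y := fun _ => rfl
  have hge : gen k G = gen (kC C) (kap w) := gen_eq E e hφ
  have hG : Gd w T := ⟨hF, hge ▸ hg⟩
  have hE' : ∀ a, E.symm (algebraMap (kC C) (kap w) a) = algebraMap k G (e.symm a) := fun a => by
    rw [RingEquiv.symm_apply_eq, hE, hφ, e.apply_symm_apply]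
  obtain ⟨s, hsp⟩ := hG.exists_sp
  let sp0 : Pc C F →+ Pc (kC C) (kap w) :=
    QuotientAddGroup.map _ _ (Finsupp.mapDomain.addMonoidHom s) (by
      rintro _ ⟨z, hz, rfl⟩
      obtain ⟨c, hc, h⟩ := hF.scale hz
      exact ⟨_, NV.red_ne_zero h, by rw [hsp _ h, dv_smul hc hz]; rfl⟩)
  have main : ∀ {m : ℕ} {f : Fˣ} {g : Gˣ} {A : Plk C F →₀ ℤ}, m • A = dv C (f : F) →
      Qr w f (φ g) → m • A.mapDomain s = dv (kC C) ((mU E g : (kap w)ˣ) : kap w) := by
    intro m f g A hA h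
    rw [← Finsupp.mapDomain_smul, hA, ← hsp _ (h.one ((_root_.map_ne_zero φ).2 g.ne_zero)), h.2]
    rfl
  have hm : ∀ g : Gˣ, mU E.symm (mU E g) = g := fun g => Units.ext (E.symm_apply_apply _)
  have tp : ∀ {m : ℕ} {f : Fˣ} {g : Gˣ}, m ≠ 0 → f ∈ divU C F m → Qr w f (φ g) →
      semiP hE' (sp0 (tP C m f)) = tP k m g := by
    intro m f g h0 hf h
    obtain ⟨A, hA⟩ := exists_halfdiv hf
    have h1 : sp0 (tP C m f) = tP (kC C) m (mU E g) := by
      rw [tP_eq h0 hA, tP_eq h0 (main hA h)]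
      rfl
    rw [h1, semiP_tP hE' h0 (mem_divU_of (main hA h)), hm]
  have mem : ∀ {m : ℕ} {f : Fˣ} {g : Gˣ}, f ∈ divU C F m → Qr w f (φ g) → g ∈ divU k G m := by
    intro m f g hf h
    obtain ⟨A, hA⟩ := exists_halfdiv hf
    have := mU_mem hE' (mem_divU_of (main hA h))
    rwa [hm] at this
  have sc : ∀ x : F, x ≠ 0 → ∃ (c : C) (y : G), c ≠ 0 ∧ y ≠ 0 ∧
      Qr w (algebraMap C F c * x) (φ y) := by
    intro x hx
    obtain ⟨c, hc, h⟩ := hF.scale hx
    rw [Algebra.smul_def] at h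
    obtain ⟨y, hy⟩ := hs (w.red (algebraMap C F c * x))
    exact ⟨c, y, hc, fun e => NV.red_ne_zero h (by rw [← hy, e, map_zero]), h.le, hy.symm⟩
  have cast : ∀ {m : ℕ}, (m : k) ≠ 0 → (m : kC C) ≠ 0 := fun {m} h => by
    rw [← map_natCast e]; exact (_root_.map_ne_zero e).2 h
  refine ⟨{ rd := fun x y => Qr w x (φ y)
            uniq := fun h h' => φ.injective (h.2.symm.trans h'.2)
            add := fun h h' => by rw [map_add]; exact h.add h'
            mul := fun h h' => by rw [map_mul]; exact h.mul h'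
            inv := fun h hy => by rw [map_inv₀]; exact h.inv ((_root_.map_ne_zero φ).2 hy)
            const := fun h => by rw [hφ]; exact Qr.const he h
            surj := fun y => w.red_surj (φ y)
            scale := sc
            T := T
            stab := ?_
            sp := (semiP hE').comp sp0
            mem := mem
            sp_tP := tp
            inj := ?_
            gen := by rw [hge, hG.gen_eq]
            chr := fun m h h0 => h ((Cm.nat (res := res) m).uniq (h0 ▸ Cm.zero)) }, rfl,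
    fun _ _ => Iff.rfl⟩
  · intro θ σ y h1 h2 h3 h4 x hx
    have h5 : w.OverG (θ T) := overG_of h3.1 (finite_of_notMem fun a e' => h4 (e.symm a)
      (φ.injective (by rw [← h3.2, e', hφ, e.apply_symm_apply]))).1
    have h6 := stab0 hF θ σ h1 (fun c => by rw [← hO, ← hO, h2]) h5
    rw [map_zero] at hx ⊢
    have h7 : w x < 1 := (NV.red_eq_zero hx.1).1 hx.2
    refine ⟨(h6 x).2 hx.1, NV.red_of_lt ?_⟩
    by_cases h0 : x = 0
    · rw [h0, map_zero, map_zero]; exact one_pos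
    by_contra h8
    have h9 := (h6 x⁻¹).1 (by rw [map_inv₀, map_inv₀]; exact inv_le_one_of_one_le₀ (not_lt.1 h8))
    rw [map_inv₀, inv_le_one₀ (w_pos h0)] at h9
    linarith
  · intro m x h0 hx h
    have h1 := ne_zero_of_cast h0
    obtain ⟨f, hf, rfl⟩ := exists_tP h1 hx
    obtain ⟨c, y, hc, hy, hq⟩ := sc f f.ne_zero
    obtain ⟨d, hd⟩ := IsAlgClosed.exists_pow_nat_eq c (Nat.pos_of_ne_zero h1)
    let u : Fˣ := Units.mk0 (algebraMap C F c) ((_root_.map_ne_zero _).2 hc)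
    have hu : u ∈ powU F m := mem_powU'.2 ⟨algebraMap C F d, by rw [← map_pow, hd]; rfl⟩
    have h2 : u * f ∈ divU C F m := mul_mem (powU_le m hu) hf
    have h3 : tP C m (u * f) = tP C m f := by
      rw [tP_mul h1 (powU_le m hu) hf, (tP_eq_zero_iff h1 (powU_le m hu)).2 hu, zero_add]
    have h4 := tp (g := Units.mk0 y hy) h1 h2 hq
    rw [h3] at h4
    obtain ⟨z, hz⟩ := mem_powU'.1 ((tP_eq_zero_iff h1 (mem (g := Units.mk0 y hy) h2 hq)).1
      (h4.symm.trans h))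
    rw [← h3, tP_eq_zero_iff h1 h2]
    exact mem_powU'.2 (hG.key (cast h0) (hq.one ((_root_.map_ne_zero φ).2 hy)) h2 (y := φ z)
      (by rw [← map_pow, hz]; exact hq.2.symm))

end Vale.Agent.P027M.R
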