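import Vale.Agent.P027M.R.Fam
import Vale.Agent.P027M.D.Over

/-!
# P027, route M, block RED: decomposition groups and Frobenius elements
-/

set_option linter.all false

noncomputable section

namespace Vale.Agent.P027M.R

open NumberField Polynomial Vale.Agent.P022 Vale.Agent.P027M.F

variable {k : Type} [Field k] {O : ValuationSubring Qb} {res : O →+* k} {Q : Ideal (𝓞 Qb)}

/-- the residue field of a valuation ring of an algebraically closed field -/
theorem algClosed_of {C : Type} [Field C] [IsAlgClosed C] {O : ValuationSubring C}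
    {res : O →+* k} (hs : Function.Surjective res) : IsAlgClosed k := by
  refine IsAlgClosed.of_exists_root _ fun p hp hirr => ?_
  obtain ⟨q, h1, h2, h3⟩ := lifts_and_natDegree_eq_and_monic
    ((mem_lifts p).2 (Polynomial.map_surjective res hs p)) hp
  have h4 : (q.map (algebraMap O C)).degree ≠ 0 := by
    rw [h3.degree_map, degree_eq_natDegree h3.ne_zero, h2]
    exact_mod_cast hirr.natDegree_pos.ne'
  obtain ⟨x, hx⟩ := IsAlgClosed.exists_root _ h4
  have h5 : IsIntegral O x := ⟨q, h3, by rwa [IsRoot, eval_map] at hx⟩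
  obtain ⟨y, rfl⟩ := IsIntegrallyClosed.algebraMap_eq_of_integral h5
  refine ⟨res y, ?_⟩
  have h6 : q.eval y = 0 := by
    rw [IsRoot, eval_map, eval₂_at_apply] at hx
    exact Subtype.ext hx
  rw [← h1, eval_map, eval₂_at_apply, h6, map_zero]

theorem charP_of (hs : Function.Surjective res) {p : ℕ} (hp : p.Prime)
    (hv : O.valuation (p : Qb) < 1) : CharP k p :=
  (CharP.charP_iff_prime_eq_zero hp).2 (((Cm.nat p).val_lt hs).1 hv)

theorem int_mem (hQ : Q.IsPrime) (hO : D.Over Q O) (x : 𝓞 Qb) : (x : Qb) ∈ O :=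
  (hO _).2 ⟨1, x, hQ.one_notMem, one_mul _⟩

theorem val_lt_iff (hQ : Q.IsPrime) (hO : D.Over Q O) (x : 𝓞 Qb) :
    O.valuation (x : Qb) < 1 ↔ x ∈ Q := by
  refine ⟨fun h => ?_, fun h => D.Ov.lt_one hQ hO hQ.one_notMem h (one_mul _)⟩
  by_contra h1
  have h0 : (x : Qb) ≠ 0 := fun e => h1 ((RingOfIntegers.coe_eq_zero_iff.1 e) ▸ Q.zero_mem)
  have h2 : (x : Qb)⁻¹ ∈ O := (hO _).2 ⟨x, 1, h1, mul_inv_cancel₀ h0⟩
  rw [← O.valuation_le_one_iff, map_inv₀, inv_le_one₀ (zero_lt_iff.2 ((_root_.map_ne_zero _).2 h0))] at h2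
  exact absurd h (not_lt.2 h2)

/-- algebraic integers reduce; the kernel is `Q` -/
theorem int_cm (hQ : Q.IsPrime) (hO : D.Over Q O) (hs : Function.Surjective res) (x : 𝓞 Qb) :
    ∃ y, Cm res (x : Qb) y ∧ (y = 0 ↔ x ∈ Q) := by
  have h := Cm.of (res := res) ⟨x, int_mem hQ hO x⟩
  exact ⟨_, h, (h.val_lt hs).symm.trans (val_lt_iff hQ hO x)⟩

/-- an automorphism which induces `τ` on the algebraic integers -/
theorem dec_of (hQ : Q.IsPrime) (hO : D.Over Q O) (hs : Function.Surjective res) (φ : GQ)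
    (τ : k ≃+* k) (h : ∀ (x : 𝓞 Qb) y, Cm res (x : Qb) y → Cm res (φ x) (τ y)) :
    Dec res φ.toRingEquiv τ := by
  have key : ∀ a b, Cm res a b → Cm res (φ a) (τ b) := by
    intro a b hab
    obtain ⟨s, t, h1, h2⟩ := (hO a).1 hab.mem
    obtain ⟨y, h3, h4⟩ := int_cm hQ hO hs s
    have h5 : y ≠ 0 := mt h4.1 h1
    have h6 := h3.mul hab
    rw [h2] at h6
    have h7 := (h t _ h6).div hs (h s _ h3) ((map_ne_zero τ).2 h5)
    rwa [← h2, map_mul, map_mul, mul_div_cancel_left₀ _ ((map_ne_zero φ).2 (h3.ne h5)),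
      mul_div_cancel_left₀ _ ((map_ne_zero τ).2 h5)] at h7
  refine ⟨fun c => ⟨fun hc => ?_, fun hc => (key _ _ (Cm.of ⟨c, hc⟩)).mem⟩, key⟩
  by_contra h1
  have h0 : c ≠ 0 := fun e => h1 (e ▸ O.zero_mem)
  have h2 := Cm.of (res := res) ⟨c⁻¹, (O.mem_or_inv_mem c).resolve_left h1⟩
  rw [not_not.1 (mt (fun e => inv_inv c ▸ (h2.inv hs e).mem) h1)] at h2
  have h3 := (key _ _ h2).mul (Cm.of (res := res) ⟨φ c, hc⟩)
  rw [map_zero, zero_mul, ← map_mul, inv_mul_cancel₀ h0, map_one] at h3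
  exact one_ne_zero (Cm.one.uniq h3)

/-- **Frobenius elements reduce to the Frobenius map** -/
theorem dec_frob (hQ : Q.IsPrime) (hO : D.Over Q O) (hs : Function.Surjective res) {φ : GQ}
    {q : ℕ} (hφ : ∀ x : 𝓞 Qb, φ • x - x ^ q ∈ Q) {τ : k ≃+* k} (hτ : ∀ a, τ a = a ^ q) :
    Dec res φ.toRingEquiv τ :=
  dec_of hQ hO hs φ τ fun x y h => by
    obtain ⟨z, h1, h2⟩ := int_cm hQ hO hs (φ • x - x ^ q)
    have h3 := h1.add (h.pow q)
    rw [h2.2 (hφ x), zero_add] at h3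
    rw [hτ]
    have e : ((φ • x - x ^ q : 𝓞 Qb) : Qb) + (x : Qb) ^ q = φ x := by
      change φ (x : Qb) - (x : Qb) ^ q + (x : Qb) ^ q = _
      ring
    exact e ▸ h3

/-- inertia reduces to the identity -/
theorem dec_ine (hQ : Q.IsPrime) (hO : D.Over Q O) (hs : Function.Surjective res) {φ : GQ}
    (hφ : ∀ x : 𝓞 Qb, φ • x - x ∈ Q) : Dec res φ.toRingEquiv 1 :=
  dec_frob hQ hO hs (q := 1) (fun x => by rw [pow_one]; exact hφ x) fun a => (pow_one a).symm

end Vale.Agent.P027M.R
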