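import Vale.Agent.P022.H20.GalDef

/-! # P027 route M, block R: algebraic numbers are units at almost all primes -/

set_option linter.all false

noncomputable section

namespace Vale.Agent.P027M.R

open Vale.Agent.P022

namespace Un

variable {K : Type*} [Field K] (O : ValuationSubring K)

theorem val_nat {p d : ℕ} (hp : p.Prime) (hd : ¬ p ∣ d) (h : O.valuation (p : K) < 1) :
    O.valuation (d : K) = 1 := by
  refine le_antisymm (O.valuation_le_one ⟨d, natCast_mem O d⟩) (not_lt.1 fun h1 => ?_)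
  obtain ⟨u, v, e⟩ := Nat.isCoprime_iff_coprime.2 ((Nat.Prime.coprime_iff_not_dvd hp).2 hd)
  have e1 : (u : K) * p + v * d = 1 := by exact_mod_cast congrArg (Int.cast : ℤ → K) e
  have hu : O.valuation (u : K) ≤ 1 := O.valuation_le_one ⟨u, intCast_mem O u⟩
  have hv : O.valuation (v : K) ≤ 1 := O.valuation_le_one ⟨v, intCast_mem O v⟩
  have h2 : O.valuation ((u : K) * p + v * d) < 1 := by
    refine Valuation.map_add_lt _ ?_ ?_
    · rw [map_mul]; exact lt_of_le_of_lt (mul_le_of_le_one_left' hu) h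
    · rw [map_mul]; exact lt_of_le_of_lt (mul_le_of_le_one_left' hv) h1
  rw [e1, map_one] at h2
  exact lt_irrefl _ h2

theorem mem_of_int {x : K} (hx : IsIntegral ℤ x) : x ∈ O := by
  have h : IsIntegral O x := hx.tower_top
  obtain ⟨b, hb⟩ := (IsIntegrallyClosed.isIntegral_iff (R := O) (K := K)).1 h
  rw [← hb]
  exact b.2

theorem den {x : K} (hx : IsAlgebraic ℤ x) : ∃ d : ℕ, d ≠ 0 ∧ IsIntegral ℤ ((d : K) * x) := by
  obtain ⟨y, hy, h⟩ := hx.exists_integral_multiple
  refine ⟨y.natAbs, Int.natAbs_ne_zero.2 hy, ?_⟩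
  rw [zsmul_eq_mul] at h
  rcases Int.natAbs_eq y with e | e
  · rw [e, Int.cast_natCast] at h
    exact h
  · have := h.neg
    rw [e, Int.cast_neg, Int.cast_natCast, neg_mul, neg_neg] at this
    exact this

theorem alg (x : Qb) : IsAlgebraic ℤ x :=
  (IsFractionRing.isAlgebraic_iff ℤ ℚ Qb).2 ((AlgebraicClosure.isAlgebraic ℚ).isAlgebraic x)

end Un

open Un

/-- an algebraic number is integral at almost all primes -/
theorem exists_int (a : Qb) : ∃ B : ℕ, B ≠ 0 ∧ ∀ (p : ℕ) (O : ValuationSubring Qb), p.Prime →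
    ¬ p ∣ B → O.valuation (p : Qb) < 1 → a ∈ O := by
  obtain ⟨d, hd, h⟩ := den (alg a)
  refine ⟨d, hd, fun p O hp h1 h2 => ?_⟩
  have h3 := (O.valuation_le_one_iff _).2 (mem_of_int O h)
  rw [map_mul, val_nat O hp h1 h2, one_mul] at h3
  exact (O.valuation_le_one_iff _).1 h3

/-- a non-zero algebraic number is a unit at almost all primes -/
theorem exists_unit1 {a : Qb} (ha : a ≠ 0) : ∃ B : ℕ, B ≠ 0 ∧
    ∀ (p : ℕ) (O : ValuationSubring Qb), p.Prime → ¬ p ∣ B → O.valuation (p : Qb) < 1 →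
      O.valuation a = 1 := by
  obtain ⟨B, hB, h⟩ := exists_int a
  obtain ⟨B', hB', h'⟩ := exists_int a⁻¹
  refine ⟨B * B', mul_ne_zero hB hB', fun p O hp h1 h2 => ?_⟩
  have h3 := (O.valuation_le_one_iff _).2 (h p O hp (fun e => h1 (e.mul_right _)) h2)
  have h4 := (O.valuation_le_one_iff _).2 (h' p O hp (fun e => h1 (e.mul_left _)) h2)
  rw [map_inv₀, inv_le_one₀ (zero_lt_iff.2 ((Valuation.ne_zero_iff _).2 ha))] at h4
  exact le_antisymm h3 h4

/-- **finitely many non-zero algebraic numbers are units at almost all primes** -/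
theorem exists_unit (S : Finset Qb) (hS : ∀ a ∈ S, a ≠ 0) : ∃ B : ℕ, B ≠ 0 ∧
    ∀ (p : ℕ) (O : ValuationSubring Qb), p.Prime → ¬ p ∣ B → O.valuation (p : Qb) < 1 →
      ∀ a ∈ S, O.valuation a = 1 := by
  classical
  induction S using Finset.induction_on with
  | empty => exact ⟨1, one_ne_zero, fun _ _ _ _ _ a ha => absurd ha (Finset.notMem_empty a)⟩
  | insert b S _ ih =>
    obtain ⟨B, hB, h⟩ := ih fun a ha => hS a (Finset.mem_insert_of_mem ha)
    obtain ⟨B', hB', h'⟩ := exists_unit1 (hS b (Finset.mem_insert_self b S))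
    refine ⟨B * B', mul_ne_zero hB hB', fun p O hp h1 h2 a ha => ?_⟩
    rcases Finset.mem_insert.1 ha with rfl | ha
    · exact h' p O hp (fun e => h1 (e.mul_left _)) h2
    · exact h p O hp (fun e => h1 (e.mul_right _)) h2 a ha

/-- the same for a list -/
theorem exists_unitL (S : List Qb) (hS : ∀ a ∈ S, a ≠ 0) : ∃ B : ℕ, B ≠ 0 ∧
    ∀ (p : ℕ) (O : ValuationSubring Qb), p.Prime → ¬ p ∣ B → O.valuation (p : Qb) < 1 →
      ∀ a ∈ S, O.valuation a = 1 := by
  classical
  obtain ⟨B, hB, h⟩ := exists_unit S.toFinset fun a ha => hS a (List.mem_toFinset.1 ha)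
  exact ⟨B, hB, fun p O hp h1 h2 a ha => h p O hp h1 h2 a (List.mem_toFinset.2 ha)⟩

end Vale.Agent.P027M.R
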